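import Vale.Agent.P254.S5.Idn710
import Vale.Agent.P254.St625.Z1
import Vale.Agent.P254.St625.Def0
import Vale.Agent.P227.M.Bas

/-!
P254, side project (note 11007), block S5: assembly.
-/

open MeasureTheory Matrix Filter Set

namespace Vale.Agent.P254.S5

open Vale.Agent.P227

variable {n : ℕ}

/-- (R1) -/
def RegPot : Prop := ∀ (n : ℕ) (K : Set (Fin n → ℝ)), IsCompact K → Convex ℝ K →
  (interior K).Nonempty → ∀ (ε m : ℝ), 0 < ε → 0 < m → ∀ B : Matrix (Fin n) (Fin n) ℝ,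
    B.PosSemidef → ∀ c : Fin n → ℝ, ∃ c1 C1 : ℝ, M.Reg (pot K ε m B c) c1 C1

/-- (R2) -/
def HessPot : Prop := ∀ (n : ℕ) (K : Set (Fin n → ℝ)), IsCompact K → Convex ℝ K →
  (interior K).Nonempty → ∀ (ε m : ℝ), 0 < ε → 0 < m → ∀ B : Matrix (Fin n) (Fin n) ℝ,
    B.PosSemidef → ∀ (c : Fin n → ℝ) (x v : M.E n),
      v.ofLp ⬝ᵥ B *ᵥ v.ofLp ≤ M.qf (M.hess (pot K ε m B c) x) v

/-- (R3) -/
def RegAff : Prop := ∀ (n : ℕ) (V : M.E n → ℝ) (c C : ℝ), M.Reg V c C →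
  ∀ (P : Matrix (Fin n) (Fin n) ℝ), IsUnit P → ∀ a : Fin n → ℝ,
    ∃ c' C' : ℝ, M.Reg (fun y => V (aff P a y)) c' C'

/-- (R4) -/
def HessAff : Prop := ∀ (n : ℕ) (V : M.E n → ℝ), ContDiff ℝ 2 V →
  ∀ (P : Matrix (Fin n) (Fin n) ℝ) (a : Fin n → ℝ) (y v : M.E n),
    M.qf (M.hess (fun y => V (aff P a y)) y) v
      = M.qf (M.hess V (aff P a y)) (WithLp.toLp 2 (P *ᵥ v.ofLp))

/-- block S5 for one weight, from the four regularity facts -/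
theorem statIneq_of (R1 : RegPot) (R2 : HessPot) (R3 : RegAff) (R4 : HessAff)
    (hS : St625.StmtStatic) {K : Set (Fin n → ℝ)} (hK : IsCompact K) (hc : Convex ℝ K)
    (hi : (interior K).Nonempty) {ε m : ℝ} (hε : 0 < ε) (hm : 0 < m)
    {B : Matrix (Fin n) (Fin n) ℝ} (hB : B.PosSemidef) (c : Fin n → ℝ) :
    St625.StatIneq St625.kst (Fr.AF (Fr.wK K ε m) B c) B (Fr.TF (Fr.wK K ε m) B c) := by
  intro L β hL hA hBL hβ r hr
  have hLdet := (Matrix.isUnit_iff_isUnit_det _).1 hL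
  have hLi : IsUnit L⁻¹ := (Matrix.isUnit_nonsing_inv_iff).2 hL
  obtain ⟨h0, h2, h3⟩ := moments hK hi hε hm hB c hL
  obtain ⟨c1, C1, hReg⟩ := R1 n K hK hc hi ε m hε hm B hB c
  obtain ⟨c2, C2, hReg2⟩ := R3 n _ c1 C1 hReg L⁻¹ hLi (Fr.muF (Fr.wK K ε m) B c)
  have key := hS n (fun y => pot K ε m B c (aff L⁻¹ (Fr.muF (Fr.wK K ε m) B c) y)) c2 C2 hReg2
    h0 (fun i j => by rw [h2 i j, hA, Matrix.one_apply]) β (fun i => ⟨(hβ i).1, (hβ i).2⟩)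
    (fun x v => by
      rw [R4 n _ hReg.C2]
      have h5 := R2 n K hK hc hi ε m hε hm B hB c
        (aff L⁻¹ (Fr.muF (Fr.wK K ε m) B c) x) (WithLp.toLp 2 (L⁻¹ *ᵥ v.ofLp))
      refine le_trans (le_of_eq ?_) h5
      show ∑ i, β i * v i ^ 2 = (L⁻¹ *ᵥ v.ofLp) ⬝ᵥ B *ᵥ (L⁻¹ *ᵥ v.ofLp)
      have h6 : L *ᵥ (L⁻¹ *ᵥ v.ofLp) = v.ofLp := by
        rw [Matrix.mulVec_mulVec, Matrix.mul_nonsing_inv _ hLdet, Matrix.one_mulVec]
      have h7 : B *ᵥ (L⁻¹ *ᵥ v.ofLp) = Lᵀ *ᵥ (Matrix.diagonal β *ᵥ v.ofLp) := by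
        conv_lhs => rw [hBL]
        rw [← Matrix.mulVec_mulVec, h6, ← Matrix.mulVec_mulVec]
      rw [h7, Matrix.dotProduct_mulVec, Matrix.vecMul_transpose, h6]
      unfold dotProduct
      refine Finset.sum_congr rfl fun i _ => ?_
      rw [Matrix.mulVec_diagonal]
      ring) r hr
  refine le_trans (le_of_eq ?_) key
  refine Finset.sum_congr rfl fun i _ => Finset.sum_congr rfl fun j _ => ?_
  congr 1
  refine Finset.sum_congr rfl fun k _ => ?_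
  rw [h3 i j k]

end Vale.Agent.P254.S5
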