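import Vale.Agent.P227.M.Defs
import Vale.Agent.P254.Frame829.Mix

/-!
P254, side project (note 11007), block S5: the potential of a tilted nice weight on Euclidean space.
-/

open MeasureTheory Matrix

namespace Vale.Agent.P254.S5

open Vale.Agent.P227

/-- the potential `-log w + ½ ⟨x, Bx⟩ - ⟨c, x⟩`, `w = Fr.wK K ε m` -/
noncomputable def pot {n : ℕ} (K : Set (Fin n → ℝ)) (ε m : ℝ) (B : Matrix (Fin n) (Fin n) ℝ)
    (c : Fin n → ℝ) (x : M.E n) : ℝ :=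
  -Real.log (Fr.wK K ε m x.ofLp) + 1 / 2 * (x.ofLp ⬝ᵥ B *ᵥ x.ofLp) - c ⬝ᵥ x.ofLp

/-- the affine map `y ↦ P y + a` of Euclidean space -/
noncomputable def aff {n : ℕ} (P : Matrix (Fin n) (Fin n) ℝ) (a : Fin n → ℝ) (y : M.E n) : M.E n :=
  WithLp.toLp 2 (P *ᵥ y.ofLp + a)

end Vale.Agent.P254.S5
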