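import Vale.Agent.P254.S5.Reg669a
import Vale.Agent.P254.S5.Defs710
import Vale.Agent.P227.M.Lap.RegLL
import Vale.Agent.P254.Frame829.BL

/-! # P254/S5: the potential of a tilted nice weight is `Reg` (helper669), part 2 -/

open MeasureTheory Matrix Filter Topology

namespace Vale.Agent.P254.S5.R669

open Vale.Agent.P227.M (Reg hess qf pd ei)
open Vale.Agent.P227.M.Lap (lap Expo contDiff_lap lap_pos integrable_lap contDiff_log_lap qf_hess
  line1 line2)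

variable {n : ℕ}

section gen

theorem two_le_top {f : EE n → ℝ} (h : ContDiff ℝ (⊤ : ℕ∞) f) : ContDiff ℝ 2 f :=
  h.of_le (WithTop.coe_le_coe.2 (le_top : (2 : ℕ∞) ≤ ⊤))

theorem qf_le_of_bdd {V : EE n → ℝ} (hV : ContDiff ℝ (⊤ : ℕ∞) V) {C : ℝ}
    (hC : ∀ x, ‖iteratedFDeriv ℝ 2 V x‖ ≤ C) (x v : EE n) : |qf (hess V x) v| ≤ C * ‖v‖ ^ 2 := by
  rw [qf_hess (two_le_top hV)]
  have h1 : ‖fderiv ℝ (fderiv ℝ V) x‖ ≤ C := by
    have h2 := hC x
    rw [← norm_iteratedFDeriv_fderiv, ← norm_iteratedFDeriv_fderiv, norm_iteratedFDeriv_zero] at h2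
    exact h2
  have h3 := (fderiv ℝ (fderiv ℝ V) x).le_opNorm₂ v v
  rw [Real.norm_eq_abs] at h3
  calc |fderiv ℝ (fderiv ℝ V) x v v| ≤ ‖fderiv ℝ (fderiv ℝ V) x‖ * ‖v‖ * ‖v‖ := h3
    _ ≤ C * ‖v‖ * ‖v‖ := by gcongr
    _ = C * ‖v‖ ^ 2 := by ring

theorem reg_of {V : EE n → ℝ} {c : ℝ} (hc : 0 < c) (hs : ContDiff ℝ (⊤ : ℕ∞) V)
    (hl : ∀ x v, c * ‖v‖ ^ 2 ≤ qf (hess V x) v)
    (hb : ∀ k : ℕ, 2 ≤ k → ∃ B : ℝ, ∀ x, ‖iteratedFDeriv ℝ k V x‖ ≤ B) : ∃ C, Reg V c C := by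
  obtain ⟨C, hC⟩ := hb 2 le_rfl
  exact ⟨C, hc, hs, hl, fun x v => (le_abs_self _).trans (qf_le_of_bdd hs hC x v), hb⟩

theorem qf_hess_add {f g : EE n → ℝ} (hf : ContDiff ℝ (⊤ : ℕ∞) f) (hg : ContDiff ℝ (⊤ : ℕ∞) g)
    (x v : EE n) : qf (hess (fun x => f x + g x) x) v = qf (hess f x) v + qf (hess g x) v := by
  have hfd : Differentiable ℝ f := hf.differentiable (by simp)
  have hgd : Differentiable ℝ g := hg.differentiable (by simp)
  have hf2 : Differentiable ℝ (fderiv ℝ f) :=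
    ((two_le_top hf).fderiv_right (m := 1) (by norm_num)).differentiable (by norm_num)
  have hg2 : Differentiable ℝ (fderiv ℝ g) :=
    ((two_le_top hg).fderiv_right (m := 1) (by norm_num)).differentiable (by norm_num)
  rw [qf_hess (two_le_top hf), qf_hess (two_le_top hg), qf_hess (two_le_top (hf.add hg))]
  have e1 : fderiv ℝ (fun x => f x + g x) = fun x => fderiv ℝ f x + fderiv ℝ g x := by
    funext y
    exact fderiv_add (hfd y) (hgd y)
  have e2 : fderiv ℝ (fun x => fderiv ℝ f x + fderiv ℝ g x) x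
      = fderiv ℝ (fderiv ℝ f) x + fderiv ℝ (fderiv ℝ g) x := fderiv_add (hf2 x) (hg2 x)
  rw [e1, e2]
  rfl

theorem bdd_add {f g : EE n → ℝ} (hf : ContDiff ℝ (⊤ : ℕ∞) f) (hg : ContDiff ℝ (⊤ : ℕ∞) g)
    {k : ℕ} (h1 : ∃ B : ℝ, ∀ x, ‖iteratedFDeriv ℝ k f x‖ ≤ B)
    (h2 : ∃ B : ℝ, ∀ x, ‖iteratedFDeriv ℝ k g x‖ ≤ B) :
    ∃ B : ℝ, ∀ x, ‖iteratedFDeriv ℝ k (fun x => f x + g x) x‖ ≤ B := by
  obtain ⟨B1, h1⟩ := h1
  obtain ⟨B2, h2⟩ := h2
  refine ⟨B1 + B2, fun x => ?_⟩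
  have e : iteratedFDeriv ℝ k (fun x => f x + g x) x
      = iteratedFDeriv ℝ k f x + iteratedFDeriv ℝ k g x :=
    iteratedFDeriv_add_apply (hf.of_le (by exact_mod_cast le_top)).contDiffAt
      (hg.of_le (by exact_mod_cast le_top)).contDiffAt
  rw [e]
  exact (norm_add_le _ _).trans (add_le_add (h1 x) (h2 x))

end gen

section aff

/-- the linear map of a matrix -/
noncomputable def ML (M : Matrix (Fin n) (Fin n) ℝ) : EE n →L[ℝ] EE n :=
  ((EuclideanSpace.equiv (Fin n) ℝ).symm : (Fin n → ℝ) →L[ℝ] EE n) ∘L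
    (LinearMap.toContinuousLinearMap (Matrix.mulVecLin M)) ∘L
    ((EuclideanSpace.equiv (Fin n) ℝ) : EE n →L[ℝ] (Fin n → ℝ))

theorem ML_apply (M : Matrix (Fin n) (Fin n) ℝ) (x : EE n) :
    ML M x = WithLp.toLp 2 (M *ᵥ x.ofLp) := rfl

theorem aff_eq (M : Matrix (Fin n) (Fin n) ℝ) (a : Fin n → ℝ) (y : EE n) :
    aff M a y = ML M y + WithLp.toLp 2 a := rfl

theorem hasFDerivAt_comp_aff {V : EE n → ℝ} (hV : Differentiable ℝ V)
    (M : Matrix (Fin n) (Fin n) ℝ) (a : Fin n → ℝ) (y : EE n) :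
    HasFDerivAt (fun y => V (aff M a y)) ((fderiv ℝ V (aff M a y)).comp (ML M)) y := by
  have h1 : HasFDerivAt (fun y => aff M a y) (ML M) y := by
    simp only [aff_eq]
    exact (ML M).hasFDerivAt.add_const _
  exact (hV (aff M a y)).hasFDerivAt.comp y h1

/-- (R4) -/
theorem qf_hess_aff {V : EE n → ℝ} (hV : ContDiff ℝ 2 V)
    (M : Matrix (Fin n) (Fin n) ℝ) (a : Fin n → ℝ) (y v : EE n) :
    qf (hess (fun y => V (aff M a y)) y) v
      = qf (hess V (aff M a y)) (WithLp.toLp 2 (M *ᵥ v.ofLp)) := by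
  have hd : Differentiable ℝ V := hV.differentiable (by norm_num)
  have hd2 : Differentiable ℝ (fderiv ℝ V) :=
    (hV.fderiv_right (m := 1) (by norm_num)).differentiable (by norm_num)
  have haff : ContDiff ℝ 2 (fun y : EE n => aff M a y) := by
    simp only [aff_eq]
    exact (ML M).contDiff.add contDiff_const
  have hcomp : ContDiff ℝ 2 (fun y => V (aff M a y)) := hV.comp haff
  rw [qf_hess hcomp, qf_hess hV]
  have e1 : fderiv ℝ (fun y => V (aff M a y)) = fun y => (fderiv ℝ V (aff M a y)).comp (ML M) := by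
    funext y
    exact (hasFDerivAt_comp_aff hd M a y).fderiv
  rw [e1]
  have h1 : HasFDerivAt (fun y => aff M a y) (ML M) y := by
    simp only [aff_eq]
    exact (ML M).hasFDerivAt.add_const _
  have h2 : HasFDerivAt (fun y => fderiv ℝ V (aff M a y))
      ((fderiv ℝ (fderiv ℝ V) (aff M a y)).comp (ML M)) y :=
    (hd2 (aff M a y)).hasFDerivAt.comp y h1
  have h3 : HasFDerivAt (fun y => (fderiv ℝ V (aff M a y)).comp (ML M))
      ((ContinuousLinearMap.compL ℝ (EE n) (EE n) ℝ).flip (ML M) ∘L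
        ((fderiv ℝ (fderiv ℝ V) (aff M a y)).comp (ML M))) y :=
    (((ContinuousLinearMap.compL ℝ (EE n) (EE n) ℝ).flip (ML M)).hasFDerivAt).comp y h2
  rw [h3.fderiv]
  rfl

theorem contDiff_aff {V : EE n → ℝ} (hV : ContDiff ℝ (⊤ : ℕ∞) V)
    (M : Matrix (Fin n) (Fin n) ℝ) (a : Fin n → ℝ) :
    ContDiff ℝ (⊤ : ℕ∞) (fun y => V (aff M a y)) := by
  have haff : ContDiff ℝ (⊤ : ℕ∞) (fun y : EE n => aff M a y) := by
    simp only [aff_eq]
    exact (ML M).contDiff.add contDiff_const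
  exact hV.comp haff

/-- (R3) -/
theorem reg_aff {V : EE n → ℝ} {c C : ℝ} (h : Reg V c C) {M : Matrix (Fin n) (Fin n) ℝ}
    (hM : IsUnit M) (a : Fin n → ℝ) : ∃ c' C', Reg (fun y => V (aff M a y)) c' C' := by
  obtain ⟨N, hN⟩ := hM.exists_left_inv
  have hc := h.c_pos
  have hlow : ∀ v : EE n, ‖v‖ ≤ (‖ML N‖ + 1) * ‖ML M v‖ := by
    intro v
    have e : v = ML N (ML M v) := by
      rw [ML_apply, ML_apply]
      change v = WithLp.toLp 2 (N *ᵥ (M *ᵥ v.ofLp))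
      rw [mulVec_mulVec, hN, one_mulVec]
    calc ‖v‖ = ‖ML N (ML M v)‖ := by rw [← e]
      _ ≤ ‖ML N‖ * ‖ML M v‖ := (ML N).le_opNorm _
      _ ≤ (‖ML N‖ + 1) * ‖ML M v‖ := by
        gcongr
        linarith
  have hN0 : 0 < ‖ML N‖ + 1 := by positivity
  refine ⟨c / (‖ML N‖ + 1) ^ 2, reg_of (by positivity) (contDiff_aff h.smooth M a)
    (fun y v => ?_) fun k hk => ?_⟩
  · rw [qf_hess_aff (two_le_top h.smooth)]
    refine le_trans ?_ (h.lower _ _)
    rw [← ML_apply]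
    have h1 : ‖v‖ ^ 2 ≤ ((‖ML N‖ + 1) * ‖ML M v‖) ^ 2 :=
      pow_le_pow_left₀ (norm_nonneg _) (hlow v) 2
    rw [div_mul_eq_mul_div, div_le_iff₀ (by positivity)]
    calc c * ‖v‖ ^ 2 ≤ c * ((‖ML N‖ + 1) * ‖ML M v‖) ^ 2 := by gcongr
      _ = _ := by ring
  · obtain ⟨B, hB⟩ := h.bdd k hk
    refine ⟨‖ML M‖ ^ k * B, fun y => ?_⟩
    have hadd : ContDiff ℝ (⊤ : ℕ∞) (fun z : EE n => V (z + WithLp.toLp 2 a)) :=
      h.smooth.comp (contDiff_id.add contDiff_const)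
    have e1 : iteratedFDeriv ℝ k (fun y => V (aff M a y)) y
        = (iteratedFDeriv ℝ k (fun z : EE n => V (z + WithLp.toLp 2 a)) (ML M y)).compContinuousLinearMap
          fun _ => ML M :=
      (ML M).iteratedFDeriv_comp_right hadd y (by exact_mod_cast le_top)
    rw [e1, iteratedFDeriv_comp_add_right]
    refine (ContinuousMultilinearMap.norm_compContinuousLinearMap_le _ _).trans ?_
    rw [Finset.prod_const, Finset.card_univ, Fintype.card_fin, mul_comm]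
    exact mul_le_mul_of_nonneg_left (hB _) (by positivity)

end aff

section nice

variable {K : Set (Fin n → ℝ)} {ε m : ℝ}

/-- the pairing `(1/ε) ⟨y, x⟩` -/
noncomputable def KP (n : ℕ) (ε : ℝ) : (Fin n → ℝ) →L[ℝ] EE n →L[ℝ] ℝ :=
  ∑ i, (1 / ε) • (ContinuousLinearMap.proj i : (Fin n → ℝ) →L[ℝ] ℝ).smulRight
    (EuclideanSpace.proj i : EE n →L[ℝ] ℝ)

theorem KP_apply (ε : ℝ) (y : Fin n → ℝ) (x : EE n) : KP n ε y x = (1 / ε) * (y ⬝ᵥ x.ofLp) := by
  unfold KP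
  simp only [_root_.sum_apply, _root_.smul_apply,
    ContinuousLinearMap.smulRight_apply, smul_eq_mul, dotProduct]
  rw [Finset.mul_sum]
  rfl

/-- the density on `K` -/
noncomputable def dn (ε : ℝ) (y : Fin n → ℝ) : ℝ := Real.exp (-(1 / (2 * ε)) * (y ⬝ᵥ y))

theorem cont_dn (ε : ℝ) : Continuous (dn ε : (Fin n → ℝ) → ℝ) := by
  unfold dn dotProduct
  fun_prop

/-- Laplace transform of the density on `K` -/
noncomputable def LK (K : Set (Fin n → ℝ)) (ε : ℝ) (x : EE n) : ℝ :=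
  lap (KP n ε) (volume.restrict K) (dn ε) x

theorem gau_eq (hε : 0 < ε) (x : EE n) :
    Fr.gau K ε x.ofLp = Real.exp (-(1 / (2 * ε)) * (x.ofLp ⬝ᵥ x.ofLp)) * LK K ε x := by
  unfold Fr.gau LK lap
  rw [← integral_const_mul]
  refine integral_congr_ae (Eventually.of_forall fun y => ?_)
  simp only [KP_apply, dn, smul_eq_mul]
  rw [← Real.exp_add, ← Real.exp_add]
  congr 1
  have h1 : (x.ofLp - y) ⬝ᵥ (x.ofLp - y) = x.ofLp ⬝ᵥ x.ofLp - 2 * (y ⬝ᵥ x.ofLp) + y ⬝ᵥ y := by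
    rw [sub_dotProduct, dotProduct_sub, dotProduct_sub, dotProduct_comm x.ofLp y]
    ring
  rw [h1]
  field_simp
  ring

theorem LK_pos (hK : IsCompact K) (hi : (interior K).Nonempty) (hε : 0 < ε) (x : EE n) :
    0 < LK K ε x := by
  have h1 := Fr.gau_pos hK hi hε x.ofLp
  rw [gau_eq hε] at h1
  exact (mul_pos_iff_of_pos_left (Real.exp_pos _)).1 h1

theorem contDiff_logLK (hK : IsCompact K) (hi : (interior K).Nonempty) (hε : 0 < ε) :
    ContDiff ℝ (⊤ : ℕ∞) (fun x => Real.log (LK K ε x)) :=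
  contDiff_log_lap (expo_compact hK (cont_dn ε)) fun x => LK_pos hK hi hε x

theorem bdd_logLK (hK : IsCompact K) (hi : (interior K).Nonempty) (hε : 0 < ε) (k : ℕ) (hk : 2 ≤ k) :
    ∃ C : ℝ, ∀ y, ‖iteratedFDeriv ℝ k (fun x : EE n => Real.log (LK K ε x)) y‖ ≤ C :=
  log_lap_bdd hK (KP n ε) (cont_dn ε) (fun _ => (Real.exp_pos _).le)
    (fun x => LK_pos hK hi hε x) k hk

/-- `-log gau` -/
noncomputable def FG (K : Set (Fin n → ℝ)) (ε : ℝ) (x : EE n) : ℝ :=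
  qd (bil ((1 / ε) • (1 : Matrix (Fin n) (Fin n) ℝ))) 0 x + -Real.log (LK K ε x)

theorem FG_eq (hK : IsCompact K) (hi : (interior K).Nonempty) (hε : 0 < ε) (x : EE n) :
    FG K ε x = -Real.log (Fr.gau K ε x.ofLp) := by
  unfold FG qd
  rw [gau_eq hε, Real.log_mul (Real.exp_pos _).ne' (LK_pos hK hi hε x).ne', Real.log_exp,
    bil_apply, smul_mulVec, one_mulVec, dotProduct_smul, smul_eq_mul]
  simp only [_root_.zero_apply]
  field_simp
  ring

theorem contDiff_FG (hK : IsCompact K) (hi : (interior K).Nonempty) (hε : 0 < ε) :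
    ContDiff ℝ (⊤ : ℕ∞) (FG K ε) :=
  (contDiff_qd _ _).add (contDiff_logLK hK hi hε).neg

theorem bdd_FG (hK : IsCompact K) (hi : (interior K).Nonempty) (hε : 0 < ε) (k : ℕ) (hk : 2 ≤ k) :
    ∃ C : ℝ, ∀ y, ‖iteratedFDeriv ℝ k (FG K ε) y‖ ≤ C := by
  refine bdd_add (contDiff_qd _ _) (contDiff_logLK hK hi hε).neg (bdd_qd _ _ k hk) ?_
  obtain ⟨C, hC⟩ := bdd_logLK hK hi hε k hk
  refine ⟨C, fun y => ?_⟩
  have e : iteratedFDeriv ℝ k (fun x : EE n => -Real.log (LK K ε x)) y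
      = -iteratedFDeriv ℝ k (fun x : EE n => Real.log (LK K ε x)) y := by
    exact iteratedFDeriv_neg_apply
  rw [e, norm_neg]
  exact hC y

theorem qf_FG_nonneg (hK : IsCompact K) (hc : Convex ℝ K) (hi : (interior K).Nonempty)
    (hε : 0 < ε) (x v : EE n) : 0 ≤ qf (hess (FG K ε) x) v := by
  have hs := contDiff_FG hK hi hε
  have h := Fr.second_le (f := fun t : ℝ => -FG K ε (x + t • v))
    (f' := fun t => -(fderiv ℝ (FG K ε) (x + t • v) v))
    (d := -qf (hess (FG K ε) (x + (0 : ℝ) • v)) v)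
    (fun t => (line1 hs x v t).neg) (line2 hs x v 0).neg fun t => by
      have h1 := Fr.gau_mid hK hc hε (x + t • v).ofLp (x + (-t) • v).ofLp
      have e : (1 / 2 : ℝ) • (x + t • v).ofLp + (1 / 2 : ℝ) • (x + (-t) • v).ofLp
          = (x + (0 : ℝ) • v).ofLp := by
        ext i
        simp
        ring
      rw [e] at h1
      have p1 := Fr.gau_pos hK hi hε (x + t • v).ofLp
      have p2 := Fr.gau_pos hK hi hε (x + (-t) • v).ofLp
      have h2 := Real.log_le_log (mul_pos p1 p2) h1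
      rw [Real.log_mul p1.ne' p2.ne', Real.log_pow] at h2
      simp only [FG_eq hK hi hε, neg_neg]
      push_cast at h2
      exact h2
  rw [zero_smul, add_zero] at h
  linarith

/-- the potential as a sum -/
theorem pot_eq (hK : IsCompact K) (hi : (interior K).Nonempty) (hε : 0 < ε)
    (B : Matrix (Fin n) (Fin n) ℝ) (c : Fin n → ℝ) :
    pot K ε m B c = fun x => FG K ε x + qd (bil (B + m • (1 : Matrix (Fin n) (Fin n) ℝ))) (lin c) x := by
  funext x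
  unfold pot Fr.wK qd
  rw [FG_eq hK hi hε, Real.log_mul (Fr.gau_pos hK hi hε x.ofLp).ne' (Real.exp_pos _).ne', Real.log_exp,
    bil_apply, lin_apply, add_mulVec, smul_mulVec, one_mulVec, dotProduct_add, dotProduct_smul,
    smul_eq_mul]
  ring

theorem contDiff_pot (hK : IsCompact K) (hi : (interior K).Nonempty) (hε : 0 < ε)
    (B : Matrix (Fin n) (Fin n) ℝ) (c : Fin n → ℝ) : ContDiff ℝ (⊤ : ℕ∞) (pot K ε m B c) := by
  rw [pot_eq hK hi hε]
  exact (contDiff_FG hK hi hε).add (contDiff_qd _ _)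

/-- (R2) -/
theorem le_qf_pot (hK : IsCompact K) (hcv : Convex ℝ K) (hi : (interior K).Nonempty) (hε : 0 < ε)
    (B : Matrix (Fin n) (Fin n) ℝ) (c : Fin n → ℝ) (x v : EE n) :
    v.ofLp ⬝ᵥ ((B + m • (1 : Matrix (Fin n) (Fin n) ℝ)) *ᵥ v.ofLp) ≤ qf (hess (pot K ε m B c) x) v := by
  rw [pot_eq hK hi hε, qf_hess_add (contDiff_FG hK hi hε) (contDiff_qd _ _), qf_qd, bil_apply]
  have := qf_FG_nonneg hK hcv hi hε x v
  linarith

/-- (R1) -/
theorem reg_pot (hK : IsCompact K) (hcv : Convex ℝ K) (hi : (interior K).Nonempty) (hε : 0 < ε)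
    (hm : 0 < m) {B : Matrix (Fin n) (Fin n) ℝ} (hB : B.PosSemidef) (c : Fin n → ℝ) :
    ∃ C, Reg (pot K ε m B c) m C := by
  refine reg_of hm (contDiff_pot hK hi hε B c) (fun x v => ?_) fun k hk => ?_
  · refine le_trans ?_ (le_qf_pot hK hcv hi hε B c x v)
    rw [add_mulVec, smul_mulVec, one_mulVec, dotProduct_add, dotProduct_smul, smul_eq_mul]
    have h1 : 0 ≤ v.ofLp ⬝ᵥ (B *ᵥ v.ofLp) := by
      have := hB.dotProduct_mulVec_nonneg v.ofLp
      simpa using this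
    have h2 : v.ofLp ⬝ᵥ v.ofLp = ‖v‖ ^ 2 := by
      rw [EuclideanSpace.norm_sq_eq]
      simp [dotProduct, sq]
    rw [h2]
    linarith
  · rw [pot_eq hK hi hε]
    exact bdd_add (contDiff_FG hK hi hε) (contDiff_qd _ _) (bdd_FG hK hi hε k hk) (bdd_qd _ _ k hk)

end nice

end Vale.Agent.P254.S5.R669
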