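import Vale.Agent.P254.S5.Asm710
import Vale.Agent.P254.S5.Reg669
import Vale.Agent.P254.St625.Z3
import Vale.Agent.P254.St625.W833
import Vale.Agent.P254.Frame829.Inst
import Vale.Agent.P254.S4.Loss

/-!
P254, stage 3: blocks S3, S4, S5 put together: `StmtStatic` implies
`L_K ≤ exp ((19/100) (n+1)/n) L_Δ` for every convex body.
-/

open MeasureTheory Matrix Filter Set

namespace Vale.Agent.P254.S5

open Vale.Agent.P227

variable {n : ℕ}

theorem regPot : RegPot := by
  intro n K hK hc hi ε m hε hm B hB c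
  obtain ⟨C, hC⟩ := R669.reg_pot hK hc hi hε hm hB c
  exact ⟨m, C, hC⟩

theorem hessPot : HessPot := by
  intro n K hK hc hi ε m hε hm B hB c x v
  refine le_trans ?_ (R669.le_qf_pot hK hc hi hε B c x v)
  rw [Matrix.add_mulVec, Matrix.smul_mulVec, Matrix.one_mulVec, dotProduct_add, dotProduct_smul,
    smul_eq_mul]
  have h1 : 0 ≤ v.ofLp ⬝ᵥ v.ofLp := Fr.dot_self_nonneg v.ofLp
  have h2 : 0 ≤ m * (v.ofLp ⬝ᵥ v.ofLp) := mul_nonneg hm.le h1
  linarith

theorem regAff : RegAff := by
  intro n V c C h P hP a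
  exact R669.reg_aff h hP a

theorem hessAff : HessAff := by
  intro n V hV P a y v
  exact R669.qf_hess_aff hV P a y v

/-- block S5 -/
theorem statIneq (hS : St625.StmtStatic) {K : Set (Fin n → ℝ)} (hK : IsCompact K)
    (hc : Convex ℝ K) (hi : (interior K).Nonempty) {ε m : ℝ} (hε : 0 < ε) (hm : 0 < m)
    {B : Matrix (Fin n) (Fin n) ℝ} (hB : B.PosSemidef) (c : Fin n → ℝ) :
    St625.StatIneq St625.kst (Fr.AF (Fr.wK K ε m) B c) B (Fr.TF (Fr.wK K ε m) B c) :=
  statIneq_of regPot hessPot regAff hessAff hS hK hc hi hε hm hB c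

theorem nice_eq_wK (K : Set (Fin n → ℝ)) (ε m : ℝ) : R304.nice K ε m = Fr.wK K ε m := by
  funext x
  unfold R304.nice Fr.wK R304.qq Fr.gau
  congr 1
  refine integral_congr_ae (Eventually.of_forall fun y => ?_)
  show Real.exp _ = Real.exp _
  congr 1
  rw [neg_div, div_eq_inv_mul, one_div, neg_mul]

/-- the entropy inequality with loss for the nice measures -/
theorem niceFrL (hS : St625.StmtStatic) (n : ℕ) : S4.NiceFrL (19 / 100) n := by
  intro K hK hs hi ε m hε hm B hB c
  rw [nice_eq_wK]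
  exact St625.ent_le St625.W833.wp (Fr.entData hK hs hi hε hm)
    (fun B hB c => statIneq hS hK hs.convex hi hε hm hB.posSemidef c) hB c

/-- `L_K ≤ exp ((19/100) (n+1)/n) L_Δ` from the static inequality -/
theorem isoConst_le_of_static (hS : St625.StmtStatic) (hn : 1 ≤ n) {K : Set (Fin n → ℝ)}
    (hK : IsConvexBody K) {S : Set (Fin n → ℝ)} (hSi : IsSimplex S) :
    isoConst K ≤ Real.exp (19 / 100 * (n + 1) / n) * isoConst S :=
  S4.isoConst_le_exp hn (niceFrL hS (n + 1)).niceDDL hK hSi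

end Vale.Agent.P254.S5
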