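import Vale.Agent.P254.S5.Defs710
import Vale.Agent.P254.Frame829.Nice
import Vale.Agent.P254.Affine

/-!
P254, side project (note 11007), block S5, identification half: the moments of `e^{-pot ∘ aff}` are
the tilted cumulants of the frame.
-/

open MeasureTheory Matrix Filter

namespace Vale.Agent.P254.S5

open Vale.Agent.P227

variable {n : ℕ}

theorem integral_ofLp (g : (Fin n → ℝ) → ℝ) : ∫ y : M.E n, g y.ofLp = ∫ x, g x := by
  exact (EuclideanSpace.volume_preserving_symm_measurableEquiv_toLp (Fin n)).integral_comp' g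

/-- change of variables -/
theorem integral_aff {P : Matrix (Fin n) (Fin n) ℝ} (hP : IsUnit P) (a : Fin n → ℝ)
    (f : (Fin n → ℝ) → ℝ) :
    ∫ y : M.E n, f (aff P a y).ofLp = |P.det|⁻¹ * ∫ x, f x := by
  have hdet : P.det ≠ 0 := ((Matrix.isUnit_iff_isUnit_det _).1 hP).ne_zero
  have h1 := integral_ofLp (n := n) (fun x => f (P *ᵥ x + a))
  have h2 := setIntegral_aff_image (n := n) hdet a MeasurableSet.univ f
  have h3 : Vale.Agent.P254.aff P a '' Set.univ = Set.univ := by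
    rw [Set.image_univ, Set.range_eq_univ]
    intro x
    refine ⟨P⁻¹ *ᵥ (x - a), ?_⟩
    unfold Vale.Agent.P254.aff
    rw [Matrix.mulVec_mulVec, Matrix.mul_nonsing_inv _ ((Matrix.isUnit_iff_isUnit_det _).1 hP),
      Matrix.one_mulVec, sub_add_cancel]
  rw [h3, Measure.restrict_univ] at h2
  have h4 : ∫ y : M.E n, f (aff P a y).ofLp = ∫ x, f (P *ᵥ x + a) := h1
  rw [h4, h2]
  have h5 : |P.det| ≠ 0 := abs_ne_zero.2 hdet
  unfold Vale.Agent.P254.aff
  field_simp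

theorem exp_neg_pot {K : Set (Fin n → ℝ)} {ε m : ℝ} (hw : ∀ x, 0 < Fr.wK K ε m x)
    (B : Matrix (Fin n) (Fin n) ℝ) (c : Fin n → ℝ) (x : M.E n) :
    Real.exp (-pot K ε m B c x) = Fr.tl B c x.ofLp * Fr.wK K ε m x.ofLp := by
  unfold pot Fr.tl
  have e : -(-Real.log (Fr.wK K ε m x.ofLp) + 1 / 2 * (x.ofLp ⬝ᵥ B *ᵥ x.ofLp) - c ⬝ᵥ x.ofLp)
      = (c ⬝ᵥ x.ofLp - 1 / 2 * (x.ofLp ⬝ᵥ B *ᵥ x.ofLp)) + Real.log (Fr.wK K ε m x.ofLp) := by ring
  rw [e, Real.exp_add, Real.exp_log (hw _)]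

/-- expectations under `e^{-pot ∘ aff}` are tilted expectations -/
theorem Ex_pot {K : Set (Fin n → ℝ)} {ε m : ℝ} (hw : ∀ x, 0 < Fr.wK K ε m x)
    (B : Matrix (Fin n) (Fin n) ℝ) (c : Fin n → ℝ) {P : Matrix (Fin n) (Fin n) ℝ} (hP : IsUnit P)
    (a : Fin n → ℝ) (φ : (Fin n → ℝ) → ℝ) :
    M.Ex (fun y => pot K ε m B c (aff P a y)) (fun y => φ (aff P a y).ofLp)
      = Fr.Ev (Fr.wK K ε m) B c φ := by
  unfold M.Ex Fr.Ev Fr.I
  have hdet : P.det ≠ 0 := ((Matrix.isUnit_iff_isUnit_det _).1 hP).ne_zero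
  have h5 : |P.det|⁻¹ ≠ 0 := inv_ne_zero (abs_ne_zero.2 hdet)
  simp only [exp_neg_pot hw]
  have h1 := integral_aff hP a (fun x => φ x * (Fr.tl B c x * Fr.wK K ε m x))
  have h2 := integral_aff hP a (fun x => Fr.tl B c x * Fr.wK K ε m x)
  rw [h1, h2, mul_div_mul_left _ _ h5]
  simp only [one_mul]

section moments

variable {w : (Fin n → ℝ) → ℝ} {m C : ℝ} {B : Matrix (Fin n) (Fin n) ℝ}

/-- centred coordinates -/
noncomputable def cc (w : (Fin n → ℝ) → ℝ) (B : Matrix (Fin n) (Fin n) ℝ) (c : Fin n → ℝ)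
    (i : Fin n) (x : Fin n → ℝ) : ℝ := x i - Fr.muF w B c i

theorem pg_cc (w : (Fin n → ℝ) → ℝ) (B : Matrix (Fin n) (Fin n) ℝ) (c : Fin n → ℝ) (i : Fin n) :
    Fr.Pg (cc w B c i) := (Fr.Pg.coord i).sub (Fr.Pg.const _)

theorem Ev_cc (hw : Fr.Wt w m C) (hB : Fr.Adm m B) (c : Fin n → ℝ) (i : Fin n) :
    Fr.Ev w B c (cc w B c i) = 0 := by
  unfold cc
  rw [Fr.Ev_sub hw hB c (Fr.Pg.coord i) (Fr.Pg.const _), Fr.Ev_const hw hB]
  exact sub_self _

theorem Ev_cc2 (hw : Fr.Wt w m C) (hB : Fr.Adm m B) (c : Fin n → ℝ) (i j : Fin n) :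
    Fr.Ev w B c (fun x => cc w B c i x * cc w B c j x) = Fr.AF w B c i j := by
  have h := Fr.lin_Ev hw hB c
  have e1 : (fun x => cc w B c i x * cc w B c j x) = fun x =>
      (x i * x j - Fr.muF w B c j * x i) - (Fr.muF w B c i * x j
        - Fr.muF w B c i * Fr.muF w B c j) := by
    funext x; unfold cc; ring
  have p1 := Fr.Pg.coord (n := n) i
  have p2 := Fr.Pg.coord (n := n) j
  rw [e1, Fr.Ev_sub hw hB c ((p1.mul p2).sub (p1.const_mul _))
    ((p2.const_mul _).sub (Fr.Pg.const _)), Fr.Ev_sub hw hB c (p1.mul p2) (p1.const_mul _),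
    Fr.Ev_sub hw hB c (p2.const_mul _) (Fr.Pg.const _), Fr.Ev_const_mul, Fr.Ev_const_mul,
    Fr.Ev_const hw hB, Fr.AF_apply]
  unfold Fr.c2 Fr.muF Fr.co
  ring

theorem Ev_cc3 (hw : Fr.Wt w m C) (hB : Fr.Adm m B) (c : Fin n → ℝ) (i j k : Fin n) :
    Fr.Ev w B c (fun x => cc w B c i x * cc w B c j x * cc w B c k x) = Fr.TF w B c i j k := by
  have p1 := Fr.Pg.coord (n := n) i
  have p2 := Fr.Pg.coord (n := n) j
  have p3 := Fr.Pg.coord (n := n) k
  set a := Fr.muF w B c i with ha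
  set b := Fr.muF w B c j with hb
  set d := Fr.muF w B c k with hd
  have e1 : (fun x => cc w B c i x * cc w B c j x * cc w B c k x) = fun x =>
      (x i * x j * x k - ((d * (x i * x j) + b * (x i * x k)) + a * (x j * x k)))
        + (((b * d) * x i + (a * d) * x j) + ((a * b) * x k - a * b * d)) := by
    funext x; unfold cc; rw [← ha, ← hb, ← hd]; ring
  have q1 := (p1.mul p2).mul p3
  have q2 := (((p1.mul p2).const_mul d).add ((p1.mul p3).const_mul b)).add ((p2.mul p3).const_mul a)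
  have q3 := ((p1.const_mul (b * d)).add (p2.const_mul (a * d))).add
    ((p3.const_mul (a * b)).sub (Fr.Pg.const (n := n) (a * b * d)))
  rw [e1, Fr.Ev_add hw hB c (q1.sub q2) q3, Fr.Ev_sub hw hB c q1 q2,
    Fr.Ev_add hw hB c (((p1.mul p2).const_mul d).add ((p1.mul p3).const_mul b))
      ((p2.mul p3).const_mul a),
    Fr.Ev_add hw hB c ((p1.mul p2).const_mul d) ((p1.mul p3).const_mul b),
    Fr.Ev_add hw hB c ((p1.const_mul (b * d)).add (p2.const_mul (a * d)))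
      ((p3.const_mul (a * b)).sub (Fr.Pg.const (n := n) (a * b * d))),
    Fr.Ev_add hw hB c (p1.const_mul (b * d)) (p2.const_mul (a * d)),
    Fr.Ev_sub hw hB c (p3.const_mul (a * b)) (Fr.Pg.const (n := n) (a * b * d)),
    Fr.Ev_const_mul, Fr.Ev_const_mul, Fr.Ev_const_mul, Fr.Ev_const_mul, Fr.Ev_const_mul,
    Fr.Ev_const_mul, Fr.Ev_const hw hB]
  have a' : Fr.Ev w B c (fun x => x i) = a := rfl
  have b' : Fr.Ev w B c (fun x => x j) = b := rfl
  have d' : Fr.Ev w B c (fun x => x k) = d := rfl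
  unfold Fr.TF Fr.c3 Fr.c2 Fr.co
  rw [a', b', d']
  ring

end moments

section main

variable {K : Set (Fin n → ℝ)} {ε m : ℝ}

/-- the moments in the frame `L` -/
theorem moments (hK : IsCompact K) (hi : (interior K).Nonempty) (hε : 0 < ε) (hm : 0 < m)
    {B : Matrix (Fin n) (Fin n) ℝ} (hB : B.PosSemidef) (c : Fin n → ℝ)
    {L : Matrix (Fin n) (Fin n) ℝ} (hL : IsUnit L) :
    let V : M.E n → ℝ := fun y => pot K ε m B c (aff L⁻¹ (Fr.muF (Fr.wK K ε m) B c) y)
    (∀ i, M.Ex V (fun y => y i) = 0) ∧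
    (∀ i j, M.Ex V (fun y => y i * y j) = (L * Fr.AF (Fr.wK K ε m) B c * Lᵀ) i j) ∧
    (∀ i j k, M.Ex V (fun y => y i * y j * y k)
      = Vale.Agent.P254.L.frT L (Fr.TF (Fr.wK K ε m) B c) i j k) := by
  intro V
  obtain ⟨C, hw⟩ := Fr.wt_wK hK hi hε hm
  have hadm := Fr.adm_of_posSemidef hm hB
  have hLi : IsUnit L⁻¹ := (Matrix.isUnit_nonsing_inv_iff).2 hL
  have hpos : ∀ x, 0 < Fr.wK K ε m x := hw.pos
  have hlin := Fr.lin_Ev hw hadm c
  set μ := Fr.muF (Fr.wK K ε m) B c with hμ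
  have hc : ∀ (y : M.E n) (i : Fin n),
      y i = ∑ a, L i a * cc (Fr.wK K ε m) B c a (aff L⁻¹ μ y).ofLp := by
    intro y i
    have h1 : L *ᵥ (fun a => cc (Fr.wK K ε m) B c a (aff L⁻¹ μ y).ofLp) = y.ofLp := by
      have h2 : (fun a => cc (Fr.wK K ε m) B c a (aff L⁻¹ μ y).ofLp) = L⁻¹ *ᵥ y.ofLp := by
        funext a
        unfold cc aff
        simp [← hμ]
      rw [h2, Matrix.mulVec_mulVec, Matrix.mul_nonsing_inv _
        ((Matrix.isUnit_iff_isUnit_det _).1 hL), Matrix.one_mulVec]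
    have h3 := congrFun h1 i
    exact h3.symm
  refine ⟨fun i => ?_, fun i j => ?_, fun i j k => ?_⟩
  · have h1 := Ex_pot hpos B c hLi μ (fun x => ∑ a, L i a * cc (Fr.wK K ε m) B c a x)
    have h2 : (fun y : M.E n => y i)
        = fun y => (fun x => ∑ a, L i a * cc (Fr.wK K ε m) B c a x) (aff L⁻¹ μ y).ofLp :=
      funext fun y => hc y i
    rw [h2, h1, hlin.sum Finset.univ (fun a => L i a) _ fun a _ => pg_cc _ B c a]
    refine Finset.sum_eq_zero fun a _ => ?_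
    rw [Ev_cc hw hadm, mul_zero]
  · have h1 := Ex_pot hpos B c hLi μ (fun x => (∑ a, L i a * cc (Fr.wK K ε m) B c a x)
      * (∑ b, L j b * cc (Fr.wK K ε m) B c b x))
    have h2 : (fun y : M.E n => y i * y j)
        = fun y => (fun x => (∑ a, L i a * cc (Fr.wK K ε m) B c a x)
          * (∑ b, L j b * cc (Fr.wK K ε m) B c b x)) (aff L⁻¹ μ y).ofLp :=
      funext fun y => by
        show y i * y j = _
        rw [hc y i, hc y j]
    rw [h2, h1, hlin.two (fun a => L i a) (fun b => L j b) fun a => pg_cc _ B c a]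
    simp only [Ev_cc2 hw hadm]
    rw [Matrix.mul_apply]
    simp only [Matrix.mul_apply, Matrix.transpose_apply, Finset.sum_mul]
    rw [Finset.sum_comm]
    refine Finset.sum_congr rfl fun a _ => Finset.sum_congr rfl fun b _ => ?_
    ring
  · have h1 := Ex_pot hpos B c hLi μ (fun x => (∑ a, L i a * cc (Fr.wK K ε m) B c a x)
      * (∑ b, L j b * cc (Fr.wK K ε m) B c b x) * (∑ d, L k d * cc (Fr.wK K ε m) B c d x))
    have h2 : (fun y : M.E n => y i * y j * y k)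
        = fun y => (fun x => (∑ a, L i a * cc (Fr.wK K ε m) B c a x)
          * (∑ b, L j b * cc (Fr.wK K ε m) B c b x)
          * (∑ d, L k d * cc (Fr.wK K ε m) B c d x)) (aff L⁻¹ μ y).ofLp :=
      funext fun y => by
        show y i * y j * y k = _
        rw [hc y i, hc y j, hc y k]
    rw [h2, h1, hlin.three (fun a => L i a) (fun b => L j b) (fun d => L k d)
      fun a => pg_cc _ B c a]
    simp only [Ev_cc3 hw hadm]
    rfl

end main

end Vale.Agent.P254.S5
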