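import Vale.Agent.P254.S5.Asm710
import Vale.Agent.P254.S5.Reg669
import Vale.Agent.P254.X.Final

/-!
P254, stage 3, block S5 in the form of `X/Top.lean`: `StmtStatic → StmtNice`, and the final theorem
from `StmtStatic`.
-/

open MeasureTheory Matrix Filter Set

namespace Vale.Agent.P254.S5.N710

open Vale.Agent.P227

theorem regPot : RegPot := by
  intro n K hK hc hi ε m hε hm B hB c
  obtain ⟨C, hC⟩ := R669.reg_pot hK hc hi hε hm hB c
  exact ⟨m, C, hC⟩

theorem hessPot : HessPot := by
  intro n K hK hc hi ε m hε hm B hB c x v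
  refine le_trans ?_ (R669.le_qf_pot hK hc hi hε B c x v)
  rw [Matrix.add_mulVec, Matrix.smul_mulVec, Matrix.one_mulVec, dotProduct_add, dotProduct_smul,
    smul_eq_mul]
  have h1 : 0 ≤ v.ofLp ⬝ᵥ v.ofLp := Fr.dot_self_nonneg v.ofLp
  have h2 : 0 ≤ m * (v.ofLp ⬝ᵥ v.ofLp) := mul_nonneg hm.le h1
  linarith

theorem regAff : RegAff := by
  intro n V c C h P hP a
  exact R669.reg_aff h hP a

theorem hessAff : HessAff := by
  intro n V hV P a y v
  exact R669.qf_hess_aff hV P a y v

/-- block S5 -/
theorem stmtNice_of (hS : St625.StmtStatic) : X.Top.StmtNice := by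
  intro n K hK hs hi ε m hε hm B hB c
  exact statIneq_of regPot hessPot regAff hessAff hS hK hs.convex hi hε hm hB.posSemidef c

/-- the final theorem from the static inequality -/
theorem final_of_static (hS : St625.StmtStatic) {n : ℕ} (hn : 1 ≤ n) {K S : Set (Fin n → ℝ)}
    (hK : IsConvexBody K) (hSi : IsSimplex S) :
    isoConst K ≤ Real.exp (19 / 100 * (((n : ℝ) + 1) / n)) * isoConst S ∧
      isoConst K ≤ Real.exp (-(81 / 100)) :=
  X.Top.final (stmtNice_of hS) hn hK hSi

end Vale.Agent.P254.S5.N710
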