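import Vale.Agent.P227.M.Defs
import Vale.Agent.P227.M.Lap.Bdd
import Vale.Agent.P227.M.LL.DerBd236

/-! # P254/S5: the potential of a tilted nice weight is `Reg` (helper669) -/

open MeasureTheory Matrix Filter Topology

namespace Vale.Agent.P254.S5.R669

open Vale.Agent.P227.M (Reg hess qf pd ei)
open Vale.Agent.P227.M.Lap (lap Expo contDiff_lap lap_pos integrable_lap contDiff_log_lap qf_hess)
open Vale.Agent.P227.M.LL (norm_iterated_lap norm_iterated_log_comp)

variable {n : ℕ}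

abbrev EE (n : ℕ) := Vale.Agent.P227.M.E n

section affine

/-- bilinear form of a matrix -/
noncomputable def bil (A : Matrix (Fin n) (Fin n) ℝ) : EE n →L[ℝ] EE n →L[ℝ] ℝ :=
  ∑ i, ∑ j, A i j • (EuclideanSpace.proj i : EE n →L[ℝ] ℝ).smulRight
    (EuclideanSpace.proj j : EE n →L[ℝ] ℝ)

theorem bil_apply (A : Matrix (Fin n) (Fin n) ℝ) (x y : EE n) :
    bil A x y = x.ofLp ⬝ᵥ A *ᵥ y.ofLp := by
  unfold bil
  simp only [_root_.sum_apply, _root_.smul_apply,
    ContinuousLinearMap.smulRight_apply, smul_eq_mul, dotProduct, mulVec]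
  refine Finset.sum_congr rfl fun i _ => ?_
  rw [Finset.mul_sum]
  refine Finset.sum_congr rfl fun j _ => ?_
  simp
  ring

/-- linear form of a vector -/
noncomputable def lin (c : Fin n → ℝ) : EE n →L[ℝ] ℝ :=
  ∑ i, c i • (EuclideanSpace.proj i : EE n →L[ℝ] ℝ)

theorem lin_apply (c : Fin n → ℝ) (x : EE n) : lin c x = c ⬝ᵥ x.ofLp := by
  unfold lin
  simp [dotProduct]

/-- quadratic functions -/
noncomputable def qd (T : EE n →L[ℝ] EE n →L[ℝ] ℝ) (l : EE n →L[ℝ] ℝ) (x : EE n) : ℝ :=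
  1 / 2 * T x x - l x

theorem fderiv_qd (T : EE n →L[ℝ] EE n →L[ℝ] ℝ) (l : EE n →L[ℝ] ℝ) :
    fderiv ℝ (qd T l) = fun x => ((1 / 2 : ℝ) • (T + T.flip)) x - l := by
  funext x
  have h1 : HasFDerivAt (fun x : EE n => T x x) (T x + T.flip x) x := by
    have h := (T.hasFDerivAt (x := x)).clm_apply (hasFDerivAt_id x)
    refine h.congr_fderiv ?_
    ext v
    simp
  have h2 : HasFDerivAt (qd T l) (((1 / 2 : ℝ) • (T x + T.flip x)) - l) x :=
    (h1.const_mul (1 / 2)).sub l.hasFDerivAt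
  exact h2.fderiv

theorem contDiff_qd (T : EE n →L[ℝ] EE n →L[ℝ] ℝ) (l : EE n →L[ℝ] ℝ) :
    ContDiff ℝ (⊤ : ℕ∞) (qd T l) := by
  unfold qd
  fun_prop

theorem fderiv2_qd (T : EE n →L[ℝ] EE n →L[ℝ] ℝ) (l : EE n →L[ℝ] ℝ) :
    fderiv ℝ (fderiv ℝ (qd T l)) = fun _ => (1 / 2 : ℝ) • (T + T.flip) := by
  rw [fderiv_qd]
  funext x
  exact ((((1 / 2 : ℝ) • (T + T.flip)).hasFDerivAt (x := x)).sub_const l).fderiv

theorem bdd_qd (T : EE n →L[ℝ] EE n →L[ℝ] ℝ) (l : EE n →L[ℝ] ℝ) (k : ℕ) (hk : 2 ≤ k) :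
    ∃ B : ℝ, ∀ x, ‖iteratedFDeriv ℝ k (qd T l) x‖ ≤ B := by
  obtain ⟨j, rfl⟩ : ∃ j, k = j + 1 + 1 := ⟨k - 2, by omega⟩
  refine ⟨‖(1 / 2 : ℝ) • (T + T.flip)‖, fun x => ?_⟩
  rw [← norm_iteratedFDeriv_fderiv, ← norm_iteratedFDeriv_fderiv, fderiv2_qd]
  rcases Nat.eq_zero_or_pos j with rfl | hj
  · rw [norm_iteratedFDeriv_zero]
  · rw [iteratedFDeriv_const_of_ne (by omega), Pi.zero_apply, norm_zero]
    exact norm_nonneg ((1 / 2 : ℝ) • (T + T.flip))

theorem qf_qd (T : EE n →L[ℝ] EE n →L[ℝ] ℝ) (l : EE n →L[ℝ] ℝ) (x v : EE n) :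
    qf (hess (qd T l) x) v = T v v := by
  rw [qf_hess ((contDiff_qd T l).of_le (WithTop.coe_le_coe.2 (le_top : (2 : ℕ∞) ≤ ⊤))), fderiv2_qd]
  change (1 / 2 : ℝ) * (T v v + T v v) = T v v
  ring

end affine

end Vale.Agent.P254.S5.R669

namespace Vale.Agent.P254.S5.R669

open Vale.Agent.P227.M (Reg hess qf pd ei)
open Vale.Agent.P227.M.Lap (lap Expo contDiff_lap lap_pos integrable_lap contDiff_log_lap qf_hess)
open Vale.Agent.P227.M.LL (norm_iterated_lap norm_iterated_log_comp)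

variable {n : ℕ}

section lapl

variable {X : Type} [NormedAddCommGroup X] [NormedSpace ℝ X] [MeasurableSpace X] [BorelSpace X]
  [SecondCountableTopology X]

/-- continuous densities on a compact set have all exponential moments -/
theorem expo_compact {μ : Measure X} [IsFiniteMeasureOnCompacts μ] {K : Set X} (hK : IsCompact K)
    {g : X → ℝ} (hg : Continuous g) : Expo (μ.restrict K) g := by
  refine ⟨hg.aestronglyMeasurable, fun R => ?_⟩
  exact (Continuous.continuousOn (by fun_prop)).integrableOn_compact hK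

/-- bounded derivatives of the log-Laplace transform of a compactly supported density -/
theorem log_lap_bdd {μ : Measure X} [IsFiniteMeasureOnCompacts μ] {K : Set X} (hK : IsCompact K)
    (B : X →L[ℝ] EE n →L[ℝ] ℝ) {g : X → ℝ} (hg : Continuous g) (h0 : ∀ x, 0 ≤ g x)
    (hpos : ∀ y, 0 < lap B (μ.restrict K) g y) (k : ℕ) (hk : 2 ≤ k) :
    ∃ C : ℝ, ∀ y, ‖iteratedFDeriv ℝ k (fun y => Real.log (lap B (μ.restrict K) g y)) y‖ ≤ C := by
  obtain ⟨R, hR⟩ := hK.exists_bound_of_continuousOn (f := fun x => B x) (by fun_prop)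
  set D : ℝ := max R 0 with hD
  have hD0 : 0 ≤ D := le_max_right _ _
  have hDB : ∀ x ∈ K, ‖B x‖ ≤ D := fun x hx => (hR x hx).trans (le_max_left _ _)
  obtain ⟨C, hC⟩ := norm_iterated_log_comp (E := EE n) k (g0 := 1) (m0 := 1) one_pos D
  refine ⟨C, fun y => ?_⟩
  set Z : ℝ := lap B (μ.restrict K) g y with hZ
  have hZ0 : 0 < Z := hpos y
  set gy : X → ℝ := fun x => Real.exp (B x y) * g x / Z with hgy
  have hgyc : Continuous gy := by
    have : Continuous fun x => Real.exp (B x y) := by fun_prop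
    exact (this.mul hg).div_const Z
  have hgy0 : ∀ x, 0 ≤ gy x := fun x => div_nonneg (mul_nonneg (Real.exp_pos _).le (h0 x)) hZ0.le
  have hE : Expo (μ.restrict K) gy := expo_compact hK hgyc
  -- the shifted function
  have hsh : ∀ t, lap B (μ.restrict K) g (y + t) = Z * lap B (μ.restrict K) gy t := by
    intro t
    unfold lap
    rw [← integral_const_mul]
    refine integral_congr_ae (Eventually.of_forall fun x => ?_)
    simp only [hgy, map_add, Real.exp_add, smul_eq_mul]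
    field_simp
  have hposy : ∀ t, 0 < lap B (μ.restrict K) gy t := by
    intro t
    have h1 := hpos (y + t)
    rw [hsh] at h1
    exact (mul_pos_iff_of_pos_left hZ0).1 h1
  have hone : lap B (μ.restrict K) gy 0 = 1 := by
    have h1 := hsh 0
    rw [add_zero, ← hZ] at h1
    have h2 : Z * 1 = Z * lap B (μ.restrict K) gy 0 := by rw [mul_one]; exact h1
    exact (mul_left_cancel₀ hZ0.ne' h2).symm
  have hsm : ContDiff ℝ (⊤ : ℕ∞) (lap B (μ.restrict K) gy) := contDiff_lap B hE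
  have hder : ∀ i, 1 ≤ i → i ≤ k → ‖iteratedFDeriv ℝ i (lap B (μ.restrict K) gy) 0‖ ≤ D ^ i := by
    intro i _ _
    refine (norm_iterated_lap B i hE 0).trans ?_
    have e1 : D ^ i = ∫ x in K, D ^ i * gy x ∂μ := by
      rw [integral_const_mul]
      have h3 : (∫ x in K, gy x ∂μ) = 1 := by
        rw [← hone]
        unfold lap
        refine integral_congr_ae (Eventually.of_forall fun x => ?_)
        simp
      rw [h3, mul_one]
    rw [e1]
    refine setIntegral_mono_on ?_ ?_ hK.measurableSet fun x hx => ?_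
    · have : Continuous fun x => Real.exp (B x 0) * (‖B x‖ ^ i * ‖gy x‖) := by fun_prop
      exact this.continuousOn.integrableOn_compact hK
    · have : Continuous fun x => D ^ i * gy x := by fun_prop
      exact this.continuousOn.integrableOn_compact hK
    · rw [map_zero, Real.exp_zero, one_mul, Real.norm_of_nonneg (hgy0 x)]
      exact mul_le_mul_of_nonneg_right (pow_le_pow_left₀ (norm_nonneg _) (hDB x hx) i) (hgy0 x)
  have h5 := hC (lap B (μ.restrict K) gy) hsm hposy 0 hone.ge hone.le hder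
  have e1 : iteratedFDeriv ℝ k (fun y => Real.log (lap B (μ.restrict K) g y)) y
      = iteratedFDeriv ℝ k (fun t => Real.log (lap B (μ.restrict K) g (y + t))) 0 := by
    have := iteratedFDeriv_comp_add_left (𝕜 := ℝ)
      (f := fun y => Real.log (lap B (μ.restrict K) g y)) k y (0 : EE n)
    rw [this, add_zero]
  have e2 : (fun t => Real.log (lap B (μ.restrict K) g (y + t)))
      = fun t => Real.log Z + inner ℝ (0 : EE n) t + Real.log (lap B (μ.restrict K) gy t) := by
    funext t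
    rw [hsh, Real.log_mul hZ0.ne' (hposy t).ne', inner_zero_left, add_zero]
  rw [e1, e2]
  obtain ⟨m, rfl⟩ : ∃ m, k = m + 2 := ⟨k - 2, by omega⟩
  rw [Vale.Agent.P227.M.Lap.norm_iteratedFDeriv_add_affine (hsm.log fun t => (hposy t).ne')]
  exact h5

end lapl

end Vale.Agent.P254.S5.R669
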