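import Vale.Agent.P254.S5.Reg669
import Vale.Agent.P254.S5.Asm710
import Vale.Agent.P254.X.Top

/-! # P254/S5: output of block S5 (helper669): `StmtStatic → StmtNice` -/

open MeasureTheory Matrix Filter Set

namespace Vale.Agent.P254.S5

open Vale.Agent.P227

/-- (R1) -/
theorem regPot : RegPot := fun _ _ hK hc hi _ m hε hm _ hB c =>
  ⟨m, R669.reg_pot hK hc hi hε hm hB c⟩

/-- (R2) -/
theorem hessPot : HessPot := by
  intro n K hK hc hi ε m hε hm B hB c x v
  refine le_trans ?_ (R669.le_qf_pot (m := m) hK hc hi hε B c x v)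
  rw [add_mulVec, smul_mulVec, one_mulVec, dotProduct_add, dotProduct_smul, smul_eq_mul]
  have h2 : 0 ≤ v.ofLp ⬝ᵥ v.ofLp := Finset.sum_nonneg fun i _ => mul_self_nonneg (v.ofLp i)
  nlinarith

/-- (R3) -/
theorem regAff : RegAff := fun _ _ _ _ h _ hP a => R669.reg_aff h hP a

/-- (R4) -/
theorem hessAff : HessAff := fun _ _ h P a y v => R669.qf_hess_aff h P a y v

/-- block S5 -/
theorem stmtNice_of (hS : St625.StmtStatic) : X.Top.StmtNice :=
  fun _ _ hK hs hi _ _ hε hm _ hB c =>
    statIneq_of regPot hessPot regAff hessAff hS hK hs.convex hi hε hm hB.posSemidef c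

end Vale.Agent.P254.S5
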